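import Vale.Agent.P237.Petty.Cor.Low20.Chunks
import Vale.Agent.P237.Petty.Cor.Low20.H1d.Data

/-!
# P237: kernel checks of boxes 3 to 5
-/

namespace Vale.Agent.P237.Petty.Cor.Low20.H1d

def check3_0 : cutAll dat.Z1
    ((boxAll dat box3).take 31)
  [.leaf, .leaf, .leaf, .leaf, .leaf, .leaf, .leaf, .leaf, .leaf, .leaf, .leaf, .leaf, .leaf, .leaf,
    .leaf, .leaf, .leaf, (.split 2 .leaf (.split 2 .leaf (.split 0 (.split 2 .leaf (.split 2 .leaf
    .leaf)) (.split 2 .leaf (.split 2 .leaf .leaf))))), .leaf, .leaf, .leaf, .leaf, .leaf, .leaf,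
    .leaf, .leaf, (.split 2 .leaf (.split 2 .leaf (.split 0 (.split 2 .leaf (.split 2 .leaf .leaf))
    (.split 2 .leaf (.split 2 .leaf .leaf))))), .leaf, .leaf, .leaf, .leaf] = true := by
  decide +kernel

def check3_1 : cutAll dat.Z1
    ((boxAll dat box3).drop 31)
  [.leaf, (.split 0 .leaf .leaf), .leaf, (.split 0 .leaf .leaf), .leaf, .leaf, .leaf, .leaf, .leaf] = true := by
  decide +kernel

theorem sound3 : BoxSound dat box3 ∧ TopSound dat box3 :=
  bound_of_boxAll
    (cutAll_of_take 31 check3_0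
      check3_1)

def check4_0 : cutAll dat.Z1
    ((boxAll dat box4).take 31)
  [.leaf, .leaf, .leaf, .leaf, .leaf, .leaf, .leaf, .leaf, .leaf, .leaf, .leaf, .leaf, .leaf, .leaf,
    .leaf, .leaf, .leaf, (.split 2 .leaf (.split 2 .leaf (.split 0 (.split 2 .leaf (.split 2 .leaf
    .leaf)) (.split 2 .leaf (.split 2 .leaf .leaf))))), .leaf, .leaf, .leaf, .leaf, .leaf, .leaf,
    .leaf, .leaf, (.split 2 .leaf (.split 2 .leaf (.split 0 (.split 2 .leaf (.split 2 .leaf .leaf))
    (.split 2 .leaf (.split 2 .leaf .leaf))))), .leaf, .leaf, .leaf, .leaf] = true := by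
  decide +kernel

def check4_1 : cutAll dat.Z1
    ((boxAll dat box4).drop 31)
  [.leaf, .leaf, .leaf, (.split 0 .leaf .leaf), .leaf, .leaf, .leaf, .leaf, .leaf] = true := by
  decide +kernel

theorem sound4 : BoxSound dat box4 ∧ TopSound dat box4 :=
  bound_of_boxAll
    (cutAll_of_take 31 check4_0
      check4_1)

def check5_0 : cutAll dat.Z1
    ((boxAll dat box5).take 30)
  [.leaf, .leaf, .leaf, .leaf, .leaf, .leaf, .leaf, .leaf, .leaf, .leaf, (.split 0 .leaf .leaf),
    .leaf, .leaf, .leaf, .leaf, .leaf, .leaf, (.split 2 .leaf (.split 2 .leaf (.split 0 (.split 2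
    .leaf (.split 2 .leaf .leaf)) (.split 2 .leaf (.split 2 .leaf .leaf))))), .leaf, .leaf, .leaf,
    .leaf, .leaf, .leaf, .leaf, .leaf, (.split 2 .leaf (.split 2 .leaf (.split 0 (.split 2 .leaf
    (.split 2 .leaf .leaf)) (.split 2 .leaf (.split 2 .leaf .leaf))))), .leaf, .leaf, .leaf] = true := by
  decide +kernel

def check5_1 : cutAll dat.Z1
    ((boxAll dat box5).drop 30)
  [.leaf, .leaf, .leaf, .leaf, .leaf, .leaf, .leaf, .leaf] = true := by
  decide +kernel

theorem sound5 : BoxSound dat box5 ∧ TopSound dat box5 :=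
  bound_of_boxAll
    (cutAll_of_take 30 check5_0
      check5_1)

end Vale.Agent.P237.Petty.Cor.Low20.H1d
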