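import Vale.Agent.P237.Petty.Cor.Low20.Chunks
import Vale.Agent.P237.Petty.Cor.Low20.H1d.Data

/-!
# P237: kernel checks of boxes 6 to 8
-/

namespace Vale.Agent.P237.Petty.Cor.Low20.H1d

def check6_0 : cutAll dat.Z1
    ((boxAll dat box6).take 26)
  [(.split 0 (.split 0 (.split 1 (.split 0 .leaf .leaf) (.split 0 .leaf .leaf)) .leaf) .leaf),
    .leaf, .leaf, .leaf, .leaf, .leaf, .leaf, .leaf, .leaf, .leaf, (.split 0 .leaf .leaf), .leaf,
    .leaf, .leaf, .leaf, .leaf, .leaf, (.split 2 .leaf (.split 2 .leaf (.split 0 (.split 2 .leaf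
    (.split 2 .leaf .leaf)) (.split 2 .leaf (.split 2 .leaf .leaf))))), .leaf, .leaf, .leaf, .leaf,
    .leaf, .leaf, .leaf, .leaf] = true := by
  decide +kernel

def check6_1 : cutAll dat.Z1
    ((boxAll dat box6).drop 26)
  [(.split 2 .leaf (.split 2 .leaf (.split 0 (.split 2 .leaf (.split 2 .leaf .leaf)) (.split 2 .leaf
    (.split 2 .leaf .leaf))))), .leaf, .leaf, .leaf, .leaf, (.split 0 .leaf .leaf), .leaf, .leaf,
    .leaf, .leaf, .leaf, .leaf] = true := by
  decide +kernel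

theorem sound6 : BoxSound dat box6 ∧ TopSound dat box6 :=
  bound_of_boxAll
    (cutAll_of_take 26 check6_0
      check6_1)

def check7_0 : cutAll dat.Z1
    ((boxAll dat box7).take 33)
  [.leaf, .leaf, .leaf, .leaf, .leaf, .leaf, .leaf, .leaf, .leaf, .leaf, (.split 0 .leaf .leaf),
    .leaf, .leaf, .leaf, .leaf, .leaf, .leaf, (.split 2 .leaf (.split 2 .leaf (.split 0 (.split 2
    .leaf .leaf) (.split 2 .leaf .leaf)))), .leaf, .leaf, .leaf, .leaf, .leaf, .leaf, .leaf, .leaf,
    (.split 2 .leaf (.split 2 .leaf (.split 0 (.split 2 .leaf .leaf) (.split 2 .leaf .leaf)))),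
    .leaf, .leaf, .leaf, .leaf, (.split 0 .leaf .leaf), .leaf] = true := by
  decide +kernel

def check7_1 : cutAll dat.Z1
    ((boxAll dat box7).drop 33)
  [.leaf, .leaf, .leaf, .leaf, .leaf] = true := by
  decide +kernel

theorem sound7 : BoxSound dat box7 ∧ TopSound dat box7 :=
  bound_of_boxAll
    (cutAll_of_take 33 check7_0
      check7_1)

def check8_0 : cutAll dat.Z1
    ((boxAll dat box8).take 31)
  [.leaf, .leaf, .leaf, .leaf, .leaf, .leaf, .leaf, .leaf, .leaf, .leaf, .leaf, .leaf, .leaf, .leaf,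
    .leaf, .leaf, .leaf, (.split 2 .leaf (.split 2 .leaf (.split 0 (.split 2 .leaf (.split 2 .leaf
    .leaf)) (.split 2 .leaf (.split 2 .leaf .leaf))))), .leaf, .leaf, .leaf, .leaf, .leaf, .leaf,
    .leaf, .leaf, (.split 2 .leaf (.split 2 .leaf (.split 0 (.split 2 .leaf (.split 2 .leaf .leaf))
    (.split 2 .leaf (.split 2 .leaf .leaf))))), .leaf, .leaf, .leaf, .leaf] = true := by
  decide +kernel

def check8_1 : cutAll dat.Z1
    ((boxAll dat box8).drop 31)
  [(.split 0 .leaf .leaf), .leaf, .leaf, .leaf, .leaf, .leaf, .leaf] = true := by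
  decide +kernel

theorem sound8 : BoxSound dat box8 ∧ TopSound dat box8 :=
  bound_of_boxAll
    (cutAll_of_take 31 check8_0
      check8_1)

end Vale.Agent.P237.Petty.Cor.Low20.H1d
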