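import Vale.Agent.P237.Petty.Cor.Low20.Chunks
import Vale.Agent.P237.Petty.Cor.Low20.H1d.Data

/-!
# P237: kernel checks of boxes 18 to 20
-/

namespace Vale.Agent.P237.Petty.Cor.Low20.H1d

def check18_0 : cutAll dat.Z1
    ((boxAll dat box18).take 20)
  [.leaf, .leaf, .leaf, .leaf, .leaf, .leaf, .leaf, .leaf, .leaf, .leaf, (.split 0 (.split 1 .leaf
    (.split 0 .leaf .leaf)) .leaf), (.split 2 .leaf .leaf), .leaf, .leaf, (.split 2 (.split 2 .leaf
    (.split 0 .leaf .leaf)) (.split 2 (.split 0 .leaf .leaf) (.split 0 .leaf .leaf))), (.split 2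
    (.split 2 (.split 0 .leaf .leaf) (.split 0 .leaf .leaf)) (.split 2 (.split 0 .leaf .leaf)
    (.split 0 .leaf .leaf))), (.split 2 (.split 2 (.split 0 .leaf .leaf) (.split 0 .leaf .leaf))
    (.split 2 (.split 0 .leaf .leaf) (.split 0 .leaf .leaf))), .leaf, .leaf, .leaf] = true := by
  decide +kernel

def check18_1 : cutAll dat.Z1
    (((boxAll dat box18).drop 20).take 14)
  [(.split 2 .leaf .leaf), .leaf, .leaf, (.split 2 (.split 2 .leaf (.split 0 .leaf .leaf)) (.split 2
    (.split 0 .leaf .leaf) (.split 0 .leaf .leaf))), (.split 2 (.split 2 (.split 0 .leaf .leaf)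
    (.split 0 .leaf .leaf)) (.split 2 (.split 0 .leaf .leaf) (.split 0 .leaf .leaf))), (.split 2
    (.split 2 (.split 0 .leaf .leaf) (.split 0 .leaf .leaf)) (.split 2 (.split 0 .leaf .leaf)
    (.split 0 .leaf .leaf))), (.split 2 (.split 2 (.split 0 .leaf .leaf) .leaf) .leaf), .leaf,
    (.split 2 .leaf (.split 2 .leaf (.split 0 .leaf .leaf))), .leaf, .leaf, (.split 0 .leaf (.split
    1 (.split 0 .leaf .leaf) (.split 0 .leaf .leaf))), .leaf, .leaf] = true := by
  decide +kernel

def check18_2 : cutAll dat.Z1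
    (((boxAll dat box18).drop 20).drop 14)
  [.leaf, .leaf, .leaf, .leaf] = true := by
  decide +kernel

theorem sound18 : BoxSound dat box18 ∧ TopSound dat box18 :=
  bound_of_boxAll
    (cutAll_of_take 20 check18_0
      (cutAll_of_take 14 check18_1
      check18_2))

def check19_0 : cutAll dat.Z1
    ((boxAll dat box19).take 28)
  [.leaf, .leaf, .leaf, .leaf, .leaf, (.split 0 .leaf (.split 1 .leaf .leaf)), .leaf, .leaf, .leaf,
    .leaf, (.split 0 (.split 1 .leaf (.split 0 (.split 1 .leaf (.split 0 .leaf (.split 1 .leaf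
    (.split 0 .leaf .leaf)))) .leaf)) .leaf), (.split 2 .leaf .leaf), .leaf, .leaf, .leaf, .leaf,
    .leaf, .leaf, .leaf, (.split 2 .leaf (.split 2 .leaf (.split 0 .leaf .leaf))), (.split 2 .leaf
    .leaf), .leaf, .leaf, .leaf, .leaf, .leaf, .leaf, .leaf] = true := by
  decide +kernel

def check19_1 : cutAll dat.Z1
    ((boxAll dat box19).drop 28)
  [(.split 2 .leaf (.split 2 .leaf (.split 0 .leaf .leaf))), .leaf, .leaf, (.split 0 .leaf (.split 1
    .leaf .leaf)), .leaf, .leaf, .leaf, .leaf, .leaf, .leaf] = true := by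
  decide +kernel

theorem sound19 : BoxSound dat box19 ∧ TopSound dat box19 :=
  bound_of_boxAll
    (cutAll_of_take 28 check19_0
      check19_1)

def check20_0 : cutAll dat.Z1
    (boxAll dat box20)
  [.leaf, .leaf, .leaf, .leaf, .leaf, (.split 0 .leaf (.split 1 .leaf .leaf)), .leaf, (.split 0
    .leaf (.split 1 .leaf .leaf)), .leaf, .leaf, .leaf, .leaf, .leaf, .leaf, .leaf, .leaf, .leaf,
    .leaf, .leaf, .leaf, .leaf, .leaf, .leaf, .leaf, .leaf, .leaf, .leaf, .leaf, .leaf, .leaf,
    .leaf, (.split 0 .leaf .leaf), .leaf, .leaf, .leaf, .leaf, .leaf, .leaf] = true := by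
  decide +kernel

theorem sound20 : BoxSound dat box20 ∧ TopSound dat box20 :=
  bound_of_boxAll
    check20_0

end Vale.Agent.P237.Petty.Cor.Low20.H1d
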