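import Vale.Agent.P237.Petty.Cor.Low20.H1d.Check0
import Vale.Agent.P237.Petty.Cor.Low20.H1d.Check1
import Vale.Agent.P237.Petty.Cor.Low20.H1d.Check2
import Vale.Agent.P237.Petty.Cor.Low20.H1d.Check3
import Vale.Agent.P237.Petty.Cor.Low20.H1d.Check4
import Vale.Agent.P237.Petty.Cor.Low20.H1d.Check5
import Vale.Agent.P237.Petty.Cor.Low20.H1d.Check6
import Vale.Agent.P237.Petty.Cor.Low20.H1d.Check7
import Vale.Agent.P237.Petty.Cor.Low20.H1d.Rest

/-!
# P237: a cell of small values, dimensions 20 to 25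
-/

namespace Vale.Agent.P237.Petty.Cor.Low20.H1d

theorem bulk_sound : ∀ c ∈ boxes.take 25, BoxSound dat c ∧ TopSound dat c := by
  rw [show boxes.take 25 = bulk from rfl]
  simp only [bulk, List.forall_mem_cons]
  exact ⟨sound0, sound1, sound2, sound3,
    sound4, sound5, sound6, sound7,
    sound8, sound9, sound10, sound11,
    sound12, sound13, sound14, sound15,
    sound16, sound17, sound18, sound19,
    sound20, sound21, sound22, sound23,
    sound24,
    fun _ h => absurd h List.not_mem_nil⟩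

theorem corCell {p : ℕ} (h0 : 20 ≤ p + 2) (h1 : p + 2 ≤ 25) :
    CorCell p ((27 / 20 : ℝ) / ((p : ℝ) + 2)) ((12 / 5 : ℝ) / ((p : ℝ) + 2)) := by
  have hs := shapeOk
  simp only [Bool.and_eq_true, decide_eq_true_eq] at hs
  obtain ⟨⟨s1, s2⟩, s4⟩ := hs
  have ha := atOk
  rw [List.all_eq_true] at ha
  have h2 := ha (p - 18) (List.mem_range.2 (by omega))
  rw [show 18 + (p - 18) = p by omega] at h2
  have h := corCell_of_checks s1 h2 (farSound_of checkFar) (fun c hc => (bulk_sound c hc).1) s2
    (millsSound_of checkMills millsFull) s4 fun c hc => (bulk_sound c hc).2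
  convert h using 2 <;> norm_num [dat]

end Vale.Agent.P237.Petty.Cor.Low20.H1d
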