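import Vale.Agent.P237.Petty.Cor.Low20.Chunks
import Vale.Agent.P237.Petty.Cor.Low20.H1d.Data

/-!
# P237: kernel checks of boxes 0 to 2
-/

namespace Vale.Agent.P237.Petty.Cor.Low20.H1d

def check0_0 : cutAll dat.Z1
    ((boxAll dat box0).take 34)
  [.leaf, .leaf, .leaf, .leaf, .leaf, .leaf, .leaf, .leaf, .leaf, .leaf, .leaf, .leaf, .leaf, .leaf,
    .leaf, .leaf, .leaf, .leaf, (.split 2 (.split 2 .leaf .leaf) .leaf), .leaf, .leaf, .leaf, .leaf,
    .leaf, .leaf, .leaf, .leaf, (.split 2 (.split 2 .leaf .leaf) .leaf), .leaf, .leaf, .leaf, .leaf,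
    .leaf, .leaf] = true := by
  decide +kernel

def check0_1 : cutAll dat.Z1
    ((boxAll dat box0).drop 34)
  [(.split 0 (.split 0 (.split 0 .leaf (.split 0 .leaf (.split 0 .leaf (.split 0 (.split 0 .leaf
    (.split 0 .leaf .leaf)) .leaf)))) .leaf) .leaf), .leaf, .leaf, .leaf, .leaf, .leaf] = true := by
  decide +kernel

theorem sound0 : BoxSound dat box0 ∧ TopSound dat box0 :=
  bound_of_boxAll
    (cutAll_of_take 34 check0_0
      check0_1)

def check1_0 : cutAll dat.Z1
    ((boxAll dat box1).take 31)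
  [.leaf, .leaf, .leaf, .leaf, .leaf, .leaf, .leaf, .leaf, .leaf, .leaf, .leaf, .leaf, .leaf, .leaf,
    .leaf, .leaf, .leaf, (.split 2 .leaf (.split 2 .leaf (.split 0 .leaf (.split 2 .leaf (.split 2
    .leaf .leaf))))), (.split 2 (.split 2 .leaf .leaf) .leaf), .leaf, .leaf, .leaf, .leaf, .leaf,
    .leaf, .leaf, (.split 2 .leaf (.split 2 .leaf (.split 0 .leaf (.split 2 .leaf (.split 2 .leaf
    .leaf))))), (.split 2 (.split 2 .leaf .leaf) .leaf), .leaf, .leaf, .leaf] = true := by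
  decide +kernel

def check1_1 : cutAll dat.Z1
    ((boxAll dat box1).drop 31)
  [.leaf, (.split 0 (.split 1 (.split 0 .leaf .leaf) (.split 0 .leaf .leaf)) (.split 1 (.split 0
    .leaf .leaf) (.split 0 .leaf .leaf))), .leaf, (.split 0 (.split 0 (.split 1 (.split 0 .leaf
    .leaf) (.split 0 .leaf .leaf)) .leaf) .leaf), .leaf, .leaf, .leaf, .leaf, .leaf] = true := by
  decide +kernel

theorem sound1 : BoxSound dat box1 ∧ TopSound dat box1 :=
  bound_of_boxAll
    (cutAll_of_take 31 check1_0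
      check1_1)

def check2_0 : cutAll dat.Z1
    ((boxAll dat box2).take 30)
  [.leaf, .leaf, .leaf, .leaf, .leaf, .leaf, .leaf, .leaf, .leaf, .leaf, (.split 0 .leaf .leaf),
    .leaf, .leaf, .leaf, .leaf, .leaf, .leaf, (.split 2 .leaf (.split 2 .leaf (.split 0 (.split 2
    .leaf (.split 2 .leaf .leaf)) (.split 2 .leaf (.split 2 .leaf .leaf))))), .leaf, .leaf, .leaf,
    .leaf, .leaf, .leaf, .leaf, .leaf, (.split 2 .leaf (.split 2 .leaf (.split 0 (.split 2 .leaf
    (.split 2 .leaf .leaf)) (.split 2 .leaf (.split 2 .leaf .leaf))))), .leaf, .leaf, .leaf] = true := by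
  decide +kernel

def check2_1 : cutAll dat.Z1
    ((boxAll dat box2).drop 30)
  [.leaf, .leaf, (.split 0 .leaf (.split 1 .leaf (.split 0 .leaf .leaf))), .leaf, (.split 0 (.split
    1 (.split 0 .leaf .leaf) (.split 0 .leaf .leaf)) .leaf), .leaf, .leaf, .leaf, .leaf, .leaf] = true := by
  decide +kernel

theorem sound2 : BoxSound dat box2 ∧ TopSound dat box2 :=
  bound_of_boxAll
    (cutAll_of_take 30 check2_0
      check2_1)

end Vale.Agent.P237.Petty.Cor.Low20.H1d
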